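import Vale.Agent.P101.Common

/-!
# P101: shared definitions for the ORTH step

The orthogonal full pair is tested in simple quotients of `gen X univ`.  There the slots
generate, and elements of complementary blocks behave like a tensor product.
-/

noncomputable section

namespace Vale.Agent.P101

universe u

/-- Algebraic simplicity of a unital ring. -/
def SimpleAlg (R : Type u) [Ring R] : Prop :=
  ∀ a : R, a ≠ 0 → ∃ (k : ℕ) (b c : Fin k → R), ∑ i, b i * a * c i = 1

/-- Slots generating a simple C*-algebra. -/
structure SimpleSlots {R : Type u} [CStarAlgebra R] [PartialOrder R] [StarOrderedRing R]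
    {ι : Type*} {N : ℕ} (δ : ℝ) (X : ι → Fin N → R) : Prop where
  slots : IsSlots δ X
  gen_top : gen X Set.univ = ⊤
  simple : SimpleAlg R

/-- The positive half waves of period `2 * T`. -/
def posWave (T t : ℝ) : ℝ := max (Real.sin (Real.pi * t / T)) 0

/-- The negative half waves of period `2 * T`. -/
def negWave (T t : ℝ) : ℝ := max (-Real.sin (Real.pi * t / T)) 0

theorem posWave_nonneg (T t : ℝ) : 0 ≤ posWave T t := le_max_right _ _

theorem negWave_nonneg (T t : ℝ) : 0 ≤ negWave T t := le_max_right _ _

theorem posWave_mul_negWave (T t : ℝ) : posWave T t * negWave T t = 0 := by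
  rcases le_total (Real.sin (Real.pi * t / T)) 0 with h | h
  · simp [posWave, max_eq_right h]
  · simp [negWave, max_eq_right (neg_nonpos.2 h)]

theorem continuous_posWave (T : ℝ) : Continuous (posWave T) := by
  unfold posWave; fun_prop

theorem continuous_negWave (T : ℝ) : Continuous (negWave T) := by
  unfold negWave; fun_prop

end Vale.Agent.P101
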