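import Vale.Agent.P101.Common
import Vale.Agent.P101.Orth.Defs
import Vale.Agent.P101.Quotient

/-!
# P101: tensor injectivity in simple quotients

In an algebraically simple C*-algebra generated by slots, the algebras of disjoint blocks of slots
multiply like a tensor product; and a positive element that is not full vanishes in some simple
quotient.
-/

noncomputable section

namespace Vale.Agent.P101

open scoped CStarAlgebra

universe u

/-- Algebraic simplicity: no two-sided ideals besides `⊥` and `⊤`. -/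
def IsAlgSimple (Q : Type u) [Ring Q] : Prop :=
  ∀ J : Ideal Q, J.IsTwoSided → J = ⊥ ∨ J = ⊤

section Algebra

variable {Q : Type u} [CStarAlgebra Q]

/-- The two-sided ideal generated by one element, as a left ideal. -/
def twoSidedSpan (a : Q) : Ideal Q := Ideal.span (Set.range fun y => a * y)

theorem twoSidedSpan_isTwoSided (a : Q) : (twoSidedSpan a).IsTwoSided := by
  refine ⟨fun {x} b hx => ?_⟩
  induction hx using Submodule.span_induction with
  | mem y hy =>
    obtain ⟨z, rfl⟩ := hy
    show a * z * b ∈ twoSidedSpan a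
    rw [mul_assoc]
    exact Ideal.subset_span ⟨_, rfl⟩
  | zero => rw [zero_mul]; exact zero_mem _
  | add x y _ _ hx hy => rw [add_mul]; exact add_mem hx hy
  | smul c x _ hx => rw [smul_eq_mul, mul_assoc]; exact Ideal.mul_mem_left _ _ hx

theorem self_mem_twoSidedSpan (a : Q) : a ∈ twoSidedSpan a :=
  Ideal.subset_span ⟨1, mul_one a⟩

/-- `1` in the two-sided ideal of `a`, written out. -/
theorem exists_sum_of_one_mem {a : Q} (h : (1 : Q) ∈ twoSidedSpan a) :
    ∃ (k : ℕ) (x y : Fin k → Q), ∑ i, x i * a * y i = 1 := by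
  obtain ⟨k, x, g, hg⟩ := Submodule.mem_span_set'.1 h
  choose y hy using fun i => (g i).2
  refine ⟨k, x, y, ?_⟩
  rw [← hg]
  exact Finset.sum_congr rfl fun i _ => by rw [smul_eq_mul, ← hy i, mul_assoc]

theorem IsAlgSimple.exists_sum_eq_one (hQ : IsAlgSimple Q) {a : Q} (ha : a ≠ 0) :
    ∃ (k : ℕ) (x y : Fin k → Q), ∑ i, x i * a * y i = 1 := by
  refine exists_sum_of_one_mem ?_
  rcases hQ _ (twoSidedSpan_isTwoSided a) with h | h
  · exact absurd (by simpa [h] using self_mem_twoSidedSpan a) ha
  · rw [h]; trivial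

/-- The centre of a simple C*-algebra consists of scalars. -/
theorem IsAlgSimple.center_scalar [Nontrivial Q] (hQ : IsAlgSimple Q) {a : Q}
    (ha : ∀ y, Commute a y) : ∃ c : ℂ, a = c • 1 := by
  obtain ⟨c, hc⟩ := spectrum.nonempty a
  refine ⟨c, ?_⟩
  by_contra hne
  set d := c • (1 : Q) - a with hd
  have hd0 : d ≠ 0 := fun h => hne (sub_eq_zero.1 h).symm
  have hcomm : ∀ y, Commute d y := fun y =>
    ((Commute.one_left y).smul_left c).sub_left (ha y)
  obtain ⟨k, x, y, hxy⟩ := hQ.exists_sum_eq_one hd0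
  refine hc ?_
  show IsUnit (algebraMap ℂ Q c - a)
  rw [Algebra.algebraMap_eq_smul_one, ← hd]
  have e : d * ∑ i, x i * y i = 1 := by
    rw [← hxy, Finset.mul_sum]
    exact Finset.sum_congr rfl fun i _ => by rw [← mul_assoc, (hcomm (x i)).eq]
  exact ⟨⟨d, _, e, by rw [← (hcomm _).eq, e]⟩, rfl⟩

end Algebra

section Slots

variable {Q : Type u} [CStarAlgebra Q] [PartialOrder Q] [StarOrderedRing Q] {ι : Type*} {N : ℕ}
  {δ : ℝ} {X : ι → Fin N → Q}

/-- Products from complementary blocks span a dense subspace of the generated algebra. -/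
theorem mem_closure_span_products (hX : IsSlots δ X) (T : Set ι) {x : Q}
    (hx : x ∈ gen X Set.univ) :
    x ∈ closure (Submodule.span ℂ {z : Q | ∃ p ∈ gen X T, ∃ q ∈ gen X Tᶜ, z = p * q} : Set Q) := by
  set P : Set Q := {z : Q | ∃ p ∈ gen X T, ∃ q ∈ gen X Tᶜ, z = p * q}
  set L := Submodule.span ℂ P
  have hcomm : ∀ {p q : Q}, p ∈ gen X T → q ∈ gen X Tᶜ → q * p = p * q := fun hp hq =>
    ((starCommute_gen hX disjoint_compl_right hp hq).1.eq).symm
  have hmul : ∀ a ∈ L, ∀ b ∈ L, a * b ∈ L := by
    intro a ha b hb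
    induction ha using Submodule.span_induction with
    | mem z hz =>
      obtain ⟨p, hp, q, hq, rfl⟩ := hz
      induction hb using Submodule.span_induction with
      | mem w hw =>
        obtain ⟨p', hp', q', hq', rfl⟩ := hw
        refine Submodule.subset_span ⟨p * p', mul_mem hp hp', q * q', mul_mem hq hq', ?_⟩
        rw [mul_assoc p q, ← mul_assoc q p', hcomm hp' hq]
        noncomm_ring
      | zero => rw [mul_zero]; exact zero_mem _
      | add u v _ _ hu hv => rw [mul_add]; exact add_mem hu hv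
      | smul c u _ hu => rw [mul_smul_comm]; exact L.smul_mem c hu
    | zero => rw [zero_mul]; exact zero_mem _
    | add u v _ _ hu hv => rw [add_mul]; exact add_mem hu hv
    | smul c u _ hu => rw [smul_mul_assoc]; exact L.smul_mem c hu
  have hstar : ∀ a ∈ L, star a ∈ L := by
    intro a ha
    induction ha using Submodule.span_induction with
    | mem z hz =>
      obtain ⟨p, hp, q, hq, rfl⟩ := hz
      refine Submodule.subset_span ⟨star p, star_mem hp, star q, star_mem hq, ?_⟩
      rw [star_mul, hcomm (star_mem hp) (star_mem hq)]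
    | zero => rw [star_zero]; exact zero_mem _
    | add u v _ _ hu hv => rw [star_add]; exact add_mem hu hv
    | smul c u _ hu => rw [star_smul]; exact L.smul_mem _ hu
  have h1 : (1 : Q) ∈ L := Submodule.subset_span ⟨1, one_mem _, 1, one_mem _, (one_mul 1).symm⟩
  have hgen : (StarAlgebra.adjoin ℂ {a : Q | ∃ s ∈ Set.univ, ∃ j, X s j = a} : Set Q) ⊆ L := by
    intro a ha
    induction ha using StarAlgebra.adjoin_induction with
    | mem b hb =>
      obtain ⟨s, -, j, rfl⟩ := hb
      by_cases hs : s ∈ T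
      · exact Submodule.subset_span ⟨_, slot_mem_gen hs j, 1, one_mem _, (mul_one _).symm⟩
      · exact Submodule.subset_span ⟨1, one_mem _, _, slot_mem_gen (T := Tᶜ) hs j, (one_mul _).symm⟩
    | algebraMap c => rw [Algebra.algebraMap_eq_smul_one]; exact L.smul_mem c h1
    | add a b _ _ ha hb => exact add_mem ha hb
    | mul a b _ _ ha hb => exact hmul a ha b hb
    | star a _ ha => exact hstar a ha
  exact closure_mono hgen hx

/-- The factors of a vanishing sum of products from complementary blocks can be separated. -/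
theorem sum_mul_mul_eq_zero (hX : IsSlots δ X) (hgen : gen X Set.univ = ⊤) (T : Set ι) {κ : Type*}
    (s : Finset κ) (a b : κ → Q) (ha : ∀ i ∈ s, a i ∈ gen X T) (hb : ∀ i ∈ s, b i ∈ gen X Tᶜ)
    (h : ∑ i ∈ s, a i * b i = 0) (x : Q) : ∑ i ∈ s, a i * x * b i = 0 := by
  have hcomm : ∀ {p q : Q}, p ∈ gen X T → q ∈ gen X Tᶜ → q * p = p * q := fun hp hq =>
    ((starCommute_gen hX disjoint_compl_right hp hq).1.eq).symm
  have hx := mem_closure_span_products hX T (x := x) (by rw [hgen]; exact StarSubalgebra.mem_top)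
  have hcl : IsClosed {y : Q | ∑ i ∈ s, a i * y * b i = 0} :=
    isClosed_eq (by fun_prop) continuous_const
  refine closure_minimal (fun y hy => ?_) hcl hx
  show ∑ i ∈ s, a i * y * b i = 0
  induction hy using Submodule.span_induction with
  | mem z hz =>
    obtain ⟨p, hp, q, hq, rfl⟩ := hz
    calc ∑ i ∈ s, a i * (p * q) * b i = ∑ i ∈ s, q * (a i * b i) * p :=
          Finset.sum_congr rfl fun i hi => by
            rw [← hcomm hp hq, ← mul_assoc (a i) q p, ← hcomm (ha i hi) hq, mul_assoc (q * a i) p,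
              ← hcomm hp (hb i hi)]
            noncomm_ring
      _ = 0 := by rw [← Finset.sum_mul, ← Finset.mul_sum, h, mul_zero, zero_mul]
  | zero => simp
  | add u v _ _ hu hv => simp only [mul_add, add_mul, Finset.sum_add_distrib, hu, hv, add_zero]
  | smul c u _ hu => simp only [mul_smul_comm, smul_mul_assoc, ← Finset.smul_sum, hu, smul_zero]

omit [PartialOrder Q] [StarOrderedRing Q] in
/-- A separated vanishing sum with independent left factors has vanishing right factors. -/
theorem IsAlgSimple.eq_zero_of_sum_mul_mul [Nontrivial Q] (hQ : IsAlgSimple Q) {κ : Type*}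
    (a : κ → Q) (hind : LinearIndependent ℂ a) (s : Finset κ) (b : κ → Q)
    (h : ∀ x, ∑ i ∈ s, a i * x * b i = 0) : ∀ i ∈ s, b i = 0 := by
  classical
  induction s using Finset.strongInduction generalizing b with
  | H s ih =>
    intro j hj
    by_contra hbj
    obtain ⟨k, p, q, hpq⟩ := hQ.exists_sum_eq_one hbj
    set c : κ → Q := fun i => ∑ l, p l * b i * q l with hc
    have hsum : ∀ x, ∑ i ∈ s, a i * x * c i = 0 := fun x => by
      simp only [hc, Finset.mul_sum]
      rw [Finset.sum_comm]
      refine Finset.sum_eq_zero fun l _ => ?_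
      calc ∑ i ∈ s, a i * x * (p l * b i * q l) = (∑ i ∈ s, a i * (x * p l) * b i) * q l := by
            rw [Finset.sum_mul]
            exact Finset.sum_congr rfl fun i _ => by noncomm_ring
        _ = 0 := by rw [h, zero_mul]
    have hcentral : ∀ i ∈ s, ∀ z, Commute (c i) z := by
      intro i hi z
      rcases eq_or_ne i j with rfl | hij
      · rw [show c i = 1 from hpq]; exact Commute.one_left z
      have := ih (s.erase j) (Finset.erase_ssubset hj) (fun i => z * c i - c i * z) (fun x => by
        have e : ∑ i ∈ s, a i * x * (z * c i - c i * z) = 0 := by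
          simp only [mul_sub, Finset.sum_sub_distrib]
          rw [show ∑ i ∈ s, a i * x * (z * c i) = ∑ i ∈ s, a i * (x * z) * c i from
              Finset.sum_congr rfl fun i _ => by noncomm_ring, hsum,
            show ∑ i ∈ s, a i * x * (c i * z) = (∑ i ∈ s, a i * x * c i) * z by
              rw [Finset.sum_mul]; exact Finset.sum_congr rfl fun i _ => by noncomm_ring,
            hsum, zero_mul, sub_zero]
        rw [Finset.sum_erase _ (by rw [show c j = 1 from hpq]; simp)]
        exact e) i (Finset.mem_erase.2 ⟨hij, hi⟩)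
      exact (sub_eq_zero.1 this).symm
    have hscal : ∀ i, ∃ t : ℂ, i ∈ s → c i = t • 1 := fun i => by
      by_cases hi : i ∈ s
      · obtain ⟨t, ht⟩ := hQ.center_scalar (hcentral i hi)
        exact ⟨t, fun _ => ht⟩
      · exact ⟨0, fun h => absurd h hi⟩
    choose t ht using hscal
    have hzero : ∑ i ∈ s, t i • a i = 0 := by
      rw [← hsum 1]
      exact Finset.sum_congr rfl fun i hi => by rw [ht i hi]; simp
    have htj := linearIndependent_iff'.1 hind s t hzero j hj
    have := ht j hj
    rw [htj, zero_smul, show c j = 1 from hpq] at this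
    exact one_ne_zero this

/-- Tensor injectivity of complementary blocks in a simple algebra. -/
theorem IsAlgSimple.tensor_injective [Nontrivial Q] (hQ : IsAlgSimple Q) (hX : IsSlots δ X)
    (hgen : gen X Set.univ = ⊤) (T : Set ι) {κ : Type*} [Fintype κ] (a b : κ → Q)
    (ha : ∀ i, a i ∈ gen X T) (hb : ∀ i, b i ∈ gen X Tᶜ) (hind : LinearIndependent ℂ a)
    (h : ∑ i, a i * b i = 0) (i : κ) : b i = 0 :=
  hQ.eq_zero_of_sum_mul_mul a hind Finset.univ b
    (sum_mul_mul_eq_zero hX hgen T Finset.univ a b (fun i _ => ha i) (fun i _ => hb i) h) i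
    (Finset.mem_univ i)

/-- Nonzero elements of disjoint blocks have nonzero product. -/
theorem IsAlgSimple.prime [Nontrivial Q] (hQ : IsAlgSimple Q) (hX : IsSlots δ X)
    (hgen : gen X Set.univ = ⊤) {T T' : Set ι} (hd : Disjoint T T') {a b : Q} (ha : a ∈ gen X T)
    (hb : b ∈ gen X T') (h : a * b = 0) : a = 0 ∨ b = 0 := by
  by_cases ha0 : a = 0
  · exact Or.inl ha0
  refine Or.inr (hQ.tensor_injective hX hgen T (fun _ : Unit => a) (fun _ => b) (fun _ => ha)
    (fun _ => gen_mono (Set.subset_compl_iff_disjoint_left.2 hd) hb) ?_ (by simpa using h) ())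
  exact LinearIndependent.of_subsingleton () ha0

end Slots

section Quotient

variable {C : Type u} [CStarAlgebra C]

/-- A positive element that is not full vanishes in a simple quotient. -/
theorem exists_simple_quotient [PartialOrder C] [StarOrderedRing C] {f : C} (hf : 0 ≤ f)
    (hfull : ¬IsFull f) : ∃ (Q : Type u) (_ : CStarAlgebra Q), Nontrivial Q ∧ IsAlgSimple Q ∧
      ∃ π : C →⋆ₐ[ℂ] Q, Function.Surjective π ∧ π f = 0 := by
  let P : Set (Ideal C) := {J | f ∈ J ∧ (1 : C) ∉ J ∧ ∀ a ∈ J, ∀ b, a * b ∈ J}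
  have hstart : twoSidedSpan f ∈ P := by
    refine ⟨self_mem_twoSidedSpan f, fun h => ?_, fun a ha b =>
      (twoSidedSpan_isTwoSided f).mul_mem_of_left b ha⟩
    obtain ⟨k, x, y, hxy⟩ := exists_sum_of_one_mem h
    exact hfull ⟨k, fullBy_of_sum hf x y hxy⟩
  have hchain : ∀ c ⊆ P, IsChain (· ≤ ·) c → ∀ y ∈ c, ∃ ub ∈ P, ∀ z ∈ c, z ≤ ub := by
    intro c hcP hc y hy
    refine ⟨sSup c, ⟨le_sSup hy (hcP hy).1, fun h1 => ?_, fun a ha b => ?_⟩,
      fun z hz => le_sSup hz⟩
    · obtain ⟨J, hJ, h1J⟩ := (Submodule.mem_sSup_of_directed ⟨y, hy⟩ hc.directedOn).1 h1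
      exact (hcP hJ).2.1 h1J
    · obtain ⟨J, hJ, haJ⟩ := (Submodule.mem_sSup_of_directed ⟨y, hy⟩ hc.directedOn).1 ha
      exact le_sSup hJ ((hcP hJ).2.2 a haJ b)
  obtain ⟨M, hle, hM⟩ := zorn_le_nonempty₀ P hchain _ hstart
  have : M.IsTwoSided := ⟨fun {a} b ha => hM.1.2.2 a ha b⟩
  have hclosed : IsClosed (M : Set C) := by
    rw [← closure_subset_iff_isClosed]
    by_cases h1 : (1 : C) ∈ M.closure
    · exfalso
      obtain ⟨a, ha, hlt⟩ := Metric.mem_closure_iff.1 h1 1 one_pos
      rw [dist_eq_norm] at hlt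
      have hu : IsUnit a := by simpa using isUnit_one_sub_of_norm_lt_one hlt
      obtain ⟨u, rfl⟩ := hu
      exact hM.1.2.1 (by simpa using M.mul_mem_left (↑u⁻¹ : C) ha)
    · exact hM.2 ⟨subset_closure hM.1.1, h1, fun a ha b =>
        map_mem_closure (f := fun x : C => x * b) (by fun_prop) ha fun x hx => hM.1.2.2 x hx b⟩
        subset_closure
  have : IsClosed (M : Set C) := hclosed
  refine ⟨C ⧸ M, inferInstance, ?_, fun J hJ => ?_, quotStar M, quotStar_surjective M,
    (quotStar_eq_zero M).2 hM.1.1⟩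
  · exact Ideal.Quotient.nontrivial_iff.2 fun h => hM.1.2.1 (h ▸ Submodule.mem_top)
  · set J' := J.comap (Ideal.Quotient.mk M) with hJ'
    by_cases h1 : (1 : C) ∈ J'
    · exact Or.inr ((Ideal.eq_top_iff_one J).2 (by simpa [hJ'] using h1))
    · refine Or.inl (Submodule.eq_bot_iff _ |>.2 fun z hz => ?_)
      obtain ⟨a, rfl⟩ := Ideal.Quotient.mk_surjective z
      have hMJ : M ≤ J' := fun b hb => by
        rw [hJ', Ideal.mem_comap, Ideal.Quotient.eq_zero_iff_mem.2 hb]; exact zero_mem _
      have hP : J' ∈ P := ⟨hMJ hM.1.1, h1, fun b hb c => by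
        rw [hJ', Ideal.mem_comap] at hb ⊢
        rw [map_mul]
        exact hJ.mul_mem_of_left _ hb⟩
      exact Ideal.Quotient.eq_zero_iff_mem.2 (hM.2 hP hMJ (show a ∈ J' from hz))

variable {ι : Type*} {N : ℕ}

/-- A surjective star homomorphism maps generating slots to generating slots. -/
theorem gen_map_eq_top {Q : Type u} [CStarAlgebra Q] (π : C →⋆ₐ[ℂ] Q)
    (hπ : Function.Surjective π) {X : ι → Fin N → C} (hgen : gen X Set.univ = ⊤) :
    gen (fun s j => π (X s j)) Set.univ = ⊤ := by
  rw [eq_top_iff]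
  intro z _
  obtain ⟨x, rfl⟩ := hπ z
  have hcl : IsClosed
      (((gen (fun s j => π (X s j)) Set.univ).comap π : StarSubalgebra ℂ C) : Set C) :=
    (isClosed_gen _ _).preimage (map_continuous π)
  exact gen_le hcl (fun s _ j => slot_mem_gen (X := fun s j => π (X s j)) (Set.mem_univ s) j)
    (by rw [hgen]; exact StarSubalgebra.mem_top : x ∈ gen X Set.univ)

/-- A star homomorphism maps the algebra of a block into the algebra of the image block. -/
theorem map_mem_gen {Q : Type u} [CStarAlgebra Q] (π : C →⋆ₐ[ℂ] Q) {X : ι → Fin N → C}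
    {T : Set ι} {x : C} (hx : x ∈ gen X T) : π x ∈ gen (fun s j => π (X s j)) T := by
  have hcl : IsClosed
      (((gen (fun s j => π (X s j)) T).comap π : StarSubalgebra ℂ C) : Set C) :=
    (isClosed_gen _ _).preimage (map_continuous π)
  exact gen_le hcl (fun s hs j => slot_mem_gen (X := fun s j => π (X s j)) hs j) hx

end Quotient

section SimpleSlots

theorem SimpleAlg.isAlgSimple {R : Type u} [CStarAlgebra R] (h : SimpleAlg R) : IsAlgSimple R := by
  intro J hJ
  rcases eq_or_ne J ⊥ with hb | hb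
  · exact Or.inl hb
  obtain ⟨a, haJ, ha⟩ := Submodule.exists_mem_ne_zero_of_ne_bot hb
  obtain ⟨k, b, c, hbc⟩ := h a ha
  refine Or.inr ((Ideal.eq_top_iff_one J).2 ?_)
  rw [← hbc]
  exact J.sum_mem fun i _ => hJ.mul_mem_of_left _ (J.mul_mem_left _ haJ)

variable {R : Type u} [CStarAlgebra R] [PartialOrder R] [StarOrderedRing R] [Nontrivial R]
  {ι : Type*} {N : ℕ} {δ : ℝ} {X : ι → Fin N → R}

/-- Product functionals respect vanishing sums of products from complementary blocks. -/
theorem SimpleSlots.sum_functional (h : SimpleSlots δ X) {T : Set ι} {κ : Type*} [Fintype κ]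
    (a b : κ → R) (ha : ∀ i, a i ∈ gen X T) (hb : ∀ i, b i ∈ gen X Tᶜ)
    (h0 : ∑ i, a i * b i = 0) (φ ψ : R →ₗ[ℂ] ℂ) : ∑ i, φ (a i) * ψ (b i) = 0 := by
  set W := Submodule.span ℂ (Set.range a)
  have hW : W ≤ Subalgebra.toSubmodule (gen X T).toSubalgebra :=
    Submodule.span_le.2 (Set.range_subset_iff.2 ha)
  have : FiniteDimensional ℂ W := FiniteDimensional.span_of_finite ℂ (Set.finite_range a)
  set e := Module.finBasis ℂ W
  let a' : κ → W := fun i => ⟨a i, Submodule.subset_span ⟨i, rfl⟩⟩
  have ha' : ∀ i, a i = ∑ k, e.repr (a' i) k • (e k : R) := fun i => by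
    calc a i = W.subtype (∑ k, e.repr (a' i) k • e k) := by rw [e.sum_repr]; rfl
      _ = _ := by simp only [map_sum, map_smul, Submodule.subtype_apply]
  have hc : ∀ k, ∑ i, e.repr (a' i) k • b i = 0 := by
    refine h.simple.isAlgSimple.tensor_injective h.slots h.gen_top T (fun k => (e k : R))
      (fun k => ∑ i, e.repr (a' i) k • b i) (fun k => hW (e k).2)
      (fun k => sum_mem fun i _ => SMulMemClass.smul_mem _ (hb i))
      (e.linearIndependent.map' W.subtype W.ker_subtype) ?_
    rw [← h0]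
    simp only [Finset.mul_sum, mul_smul_comm]
    rw [Finset.sum_comm]
    refine Finset.sum_congr rfl fun i _ => ?_
    conv_rhs => rw [ha' i]
    simp [Finset.sum_mul]
  calc ∑ i, φ (a i) * ψ (b i) = ∑ i, ∑ k, φ (e k : R) * ψ (e.repr (a' i) k • b i) := by
        refine Finset.sum_congr rfl fun i _ => ?_
        rw [ha' i, map_sum, Finset.sum_mul]
        refine Finset.sum_congr rfl fun k _ => ?_
        simp only [map_smul, smul_eq_mul]
        ring
    _ = 0 := by
        rw [Finset.sum_comm]
        refine Finset.sum_eq_zero fun k _ => ?_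
        rw [← Finset.mul_sum, ← map_sum, hc k, map_zero, mul_zero]

/-- Nonzero elements of complementary blocks have nonzero product. -/
theorem SimpleSlots.mul_ne_zero (h : SimpleSlots δ X) {T : Set ι} {a b : R} (ha : a ∈ gen X T)
    (hb : b ∈ gen X Tᶜ) (ha0 : a ≠ 0) (hb0 : b ≠ 0) : a * b ≠ 0 := fun h0 =>
  (h.simple.isAlgSimple.prime h.slots h.gen_top disjoint_compl_right ha hb h0).elim ha0 hb0

/-- Inside the algebra they generate, slots generate everything. -/
theorem gen_self_eq_top {B : Type u} [CStarAlgebra B] (Y : ι → Fin N → B) :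
    gen (fun s j => (⟨Y s j, slot_mem_gen (Set.mem_univ s) j⟩ : gen Y Set.univ)) Set.univ = ⊤ := by
  rw [eq_top_iff]
  intro x _
  set G := gen (fun s j => (⟨Y s j, slot_mem_gen (Set.mem_univ s) j⟩ : gen Y Set.univ)) Set.univ
  have hcl : IsClosed ((G.map (gen Y Set.univ).subtype : StarSubalgebra ℂ B) : Set B) :=
    (isClosed_gen Y Set.univ).isClosedEmbedding_subtypeVal.isClosedMap _ (isClosed_gen _ _)
  obtain ⟨y, hy, hyx⟩ :=
    gen_le hcl (fun s hs j => StarSubalgebra.mem_map.2 ⟨_, slot_mem_gen hs j, rfl⟩) x.2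
  exact Subtype.ext hyx ▸ hy

/-- A positive element of the generated algebra that survives in all simple quotients is full. -/
theorem isFull_of_forall_simple {B : Type u} [CStarAlgebra B] [PartialOrder B] [StarOrderedRing B]
    {ι : Type*} {N : ℕ} {δ : ℝ} (X : ι → Fin N → B) (hX : IsSlots δ X) {f : B}
    (hf : f ∈ gen X Set.univ) (hf0 : 0 ≤ f)
    (h : ∀ (R : Type u) [CStarAlgebra R] [PartialOrder R] [StarOrderedRing R] [Nontrivial R]
      (π : gen X Set.univ →⋆ₐ[ℂ] R),
      SimpleSlots δ (fun s j => π ⟨X s j, slot_mem_gen (Set.mem_univ s) j⟩) → π ⟨f, hf⟩ ≠ 0) :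
    IsFull f := by
  by_contra hfull
  have hnot : ¬IsFull (⟨f, hf⟩ : gen X Set.univ) := fun ⟨k, hk⟩ =>
    hfull ⟨k, hk.map (gen X Set.univ).subtype⟩
  obtain ⟨Q, instQ, hnt, hsimple, π, hπ, hπf⟩ :=
    exists_simple_quotient (f := (⟨f, hf⟩ : gen X Set.univ)) hf0 hnot
  let : PartialOrder Q := CStarAlgebra.spectralOrder Q
  have : StarOrderedRing Q := CStarAlgebra.spectralOrderedRing Q
  exact h Q π ⟨(hX.codRestrict _ fun s j => slot_mem_gen (Set.mem_univ s) j).map π,
    gen_map_eq_top π hπ (gen_self_eq_top X), fun a ha => hsimple.exists_sum_eq_one ha⟩ hπf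

end SimpleSlots

end Vale.Agent.P101
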