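import Vale.Agent.P101.Orth.Defs
import Vale.Agent.P101.Orth.Tensor

/-!
# P101: spectra of sums of independent commuting elements

If commuting self-adjoint `E_q` have no vanishing products of non-zero functions of them, the
spectrum of `∑ E_q` contains all sums of spectral values; with many of them of width `≥ w` the two
signs of a slowly oscillating sine of the sum are both non-zero.
-/

noncomputable section

namespace Vale.Agent.P101

open Finset

variable {B : Type*} [CStarAlgebra B]

/-- An element fixed by left multiplication with `g` inside a product whose factors commute with `g`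
fixes the product. -/
lemma mul_list_prod_eq_self {M : Type*} [Monoid M] {g x : M} (hx : g * x = x) :
    ∀ l : List M, (∀ y ∈ l, Commute g y) → x ∈ l → g * l.prod = l.prod
  | [], _, h => by simp at h
  | y :: l, hc, h => by
    rw [List.prod_cons]
    rcases List.mem_cons.1 h with rfl | h
    · rw [← mul_assoc, hx]
    · rw [← mul_assoc, (hc y (List.mem_cons_self ..)).eq, mul_assoc,
        mul_list_prod_eq_self hx l (fun z hz => hc z (List.mem_cons_of_mem _ hz)) h]

/-- The tent of radius `r` at `a`. -/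
def tent (a r t : ℝ) : ℝ := max (1 - |t - a| / r) 0

/-- A plateau equal to one within `r` of `a`, vanishing outside `2r`. -/
def plateau (a r t : ℝ) : ℝ := min (max (2 - |t - a| / r) 0) 1

lemma continuous_tent (a r : ℝ) : Continuous (tent a r) := by unfold tent; fun_prop

lemma continuous_plateau (a r : ℝ) : Continuous (plateau a r) := by unfold plateau; fun_prop

lemma tent_self (a r : ℝ) : tent a r a = 1 := by simp [tent]

lemma plateau_mul_tent (a r t : ℝ) : plateau a r t * tent a r t = tent a r t := by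
  unfold plateau tent
  by_cases h : |t - a| / r ≤ 1
  · rw [min_eq_right (le_max_of_le_left (by linarith)), one_mul]
  · rw [max_eq_right (by linarith : 1 - |t - a| / r ≤ 0), mul_zero]

lemma abs_sub_mul_plateau_le {r : ℝ} (hr : 0 < r) (a t : ℝ) :
    |(t - a) * plateau a r t| ≤ 2 * r := by
  have hp0 : 0 ≤ plateau a r t := le_min (le_max_right _ _) zero_le_one
  rw [abs_mul, abs_of_nonneg hp0]
  by_cases h : |t - a| / r ≤ 2
  · rw [div_le_iff₀ hr] at h
    exact (mul_le_of_le_one_right (abs_nonneg _) (min_le_right _ _)).trans h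
  · have : plateau a r t = 0 := by
      unfold plateau
      rw [max_eq_right (by linarith : 2 - |t - a| / r ≤ 0), min_eq_left zero_le_one]
    rw [this, mul_zero]
    linarith

lemma cfc_ne_zero_of_apply_ne_zero {a : B} (ha : IsSelfAdjoint a) {f : ℝ → ℝ} (hf : Continuous f)
    {t : ℝ} (ht : t ∈ spectrum ℝ a) (hft : f t ≠ 0) : cfc f a ≠ 0 := fun h0 => by
  have h := norm_apply_le_norm_cfc (𝕜 := ℝ) f a ht hf.continuousOn ha
  rw [h0, norm_zero, norm_le_zero_iff] at h
  exact hft h

/-- Every sum of spectral values lies in the spectrum of the sum. -/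
theorem sum_mem_spectrum {m : ℕ} (E : Fin m → B) (hsa : ∀ q, IsSelfAdjoint (E q))
    (hcomm : ∀ q r, Commute (E q) (E r))
    (hprod : ∀ f : Fin m → ℝ → ℝ, (∀ q, Continuous (f q)) → (∀ q, cfc (f q) (E q) ≠ 0) →
      (List.ofFn fun q => cfc (f q) (E q)).prod ≠ 0)
    (a : Fin m → ℝ) (ha : ∀ q, a q ∈ spectrum ℝ (E q)) :
    ∑ q, a q ∈ spectrum ℝ (∑ q, E q) := by
  by_contra h
  rw [spectrum.notMem_iff] at h
  obtain ⟨R, hR⟩ : ∃ R, R * (algebraMap ℝ B (∑ q, a q) - ∑ q, E q) = 1 :=
    ⟨_, h.val_inv_mul⟩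
  obtain ⟨r, hr, hsmall⟩ : ∃ r > 0, ‖R‖ * (m * (2 * r)) < 1 := by
    refine ⟨1 / (2 * (‖R‖ * m) + 1) / 2, by positivity, ?_⟩
    have : 0 ≤ ‖R‖ * m := by positivity
    rw [show ‖R‖ * (m * (2 * (1 / (2 * (‖R‖ * m) + 1) / 2))) =
      (‖R‖ * m) / (2 * (‖R‖ * m) + 1) by ring, div_lt_one (by positivity)]
    linarith
  let P := (List.ofFn fun q => cfc (tent (a q) r) (E q)).prod
  have hP : P ≠ 0 := hprod _ (fun q => continuous_tent _ _) fun q =>
    cfc_ne_zero_of_apply_ne_zero (hsa q) (continuous_tent _ _) (ha q)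
      (by rw [tent_self]; exact one_ne_zero)
  have hq : ∀ q, ‖(E q - algebraMap ℝ B (a q)) * P‖ ≤ 2 * r * ‖P‖ := by
    intro q
    have hpl : cfc (plateau (a q) r) (E q) * P = P := by
      refine mul_list_prod_eq_self (x := cfc (tent (a q) r) (E q)) ?_ _ ?_ ?_
      · rw [← cfc_mul _ _ (E q) (continuous_plateau _ _).continuousOn
          (continuous_tent _ _).continuousOn]
        exact cfc_congr fun t _ => plateau_mul_tent _ _ _
      · intro y hy
        obtain ⟨s, rfl⟩ := List.mem_ofFn.1 hy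
        exact (((hcomm q s).cfc_real _).symm.cfc_real _).symm
      · exact List.mem_ofFn.2 ⟨q, rfl⟩
    have hc : Continuous fun t => t - a q := continuous_id.sub continuous_const
    have e : (E q - algebraMap ℝ B (a q)) * cfc (plateau (a q) r) (E q) =
        cfc (fun t => (t - a q) * plateau (a q) r t) (E q) := by
      rw [cfc_mul _ _ (E q) hc.continuousOn (continuous_plateau _ _).continuousOn,
        cfc_sub _ _ (E q) (by fun_prop) (by fun_prop), cfc_id' ℝ (E q) (hsa q),
        cfc_const (a q) (E q) (hsa q)]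
    calc ‖(E q - algebraMap ℝ B (a q)) * P‖
        = ‖cfc (fun t => (t - a q) * plateau (a q) r t) (E q) * P‖ := by
          rw [← e, mul_assoc, hpl]
      _ ≤ ‖cfc (fun t => (t - a q) * plateau (a q) r t) (E q)‖ * ‖P‖ := norm_mul_le _ _
      _ ≤ 2 * r * ‖P‖ := mul_le_mul_of_nonneg_right
          (norm_cfc_le (by positivity) fun t _ => abs_sub_mul_plateau_le hr _ _) (norm_nonneg _)
  have hbound : ‖P‖ ≤ ‖R‖ * (m * (2 * r)) * ‖P‖ := by
    calc ‖P‖ = ‖R * ((algebraMap ℝ B (∑ q, a q) - ∑ q, E q) * P)‖ := by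
          rw [← mul_assoc, hR, one_mul]
      _ = ‖R * (∑ q, -((E q - algebraMap ℝ B (a q)) * P))‖ := by
          congr 2
          rw [map_sum, ← Finset.sum_sub_distrib, Finset.sum_mul]
          refine Finset.sum_congr rfl fun q _ => ?_
          rw [← neg_mul, neg_sub]
      _ ≤ ‖R‖ * ‖∑ q, -((E q - algebraMap ℝ B (a q)) * P)‖ := norm_mul_le _ _
      _ ≤ ‖R‖ * ∑ _q : Fin m, 2 * r * ‖P‖ := by
          refine mul_le_mul_of_nonneg_left ((norm_sum_le _ _).trans ?_) (norm_nonneg _)
          exact Finset.sum_le_sum fun q _ => by rw [norm_neg]; exact hq q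
      _ = ‖R‖ * (m * (2 * r)) * ‖P‖ := by simp; ring
  have hpos : 0 < ‖P‖ := norm_pos_iff.2 hP
  nlinarith

lemma exists_step_mem_Ioo {m : ℕ} (A : ℕ → ℝ) {K L U : ℝ} (h0 : A 0 ≤ L) (hm : L < A m)
    (hstep : ∀ j < m, A (j + 1) ≤ A j + K) (hU : L + K < U) :
    ∃ j ≤ m, A j ∈ Set.Ioo L U := by
  classical
  have hex : ∃ j, L < A j := ⟨m, hm⟩
  have hjm : Nat.find hex ≤ m := Nat.find_le hm
  refine ⟨Nat.find hex, hjm, Nat.find_spec hex, ?_⟩
  obtain ⟨i, hi⟩ : ∃ i, Nat.find hex = i + 1 := by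
    refine Nat.exists_eq_succ_of_ne_zero fun h => ?_
    have := Nat.find_spec hex
    rw [h] at this
    linarith
  have h1 : A i ≤ L := not_lt.1 (Nat.find_min hex (by omega))
  rw [hi]
  linarith [hstep i (by omega)]

/-- Many independent commuting elements of definite spectral width: both signs of the sine of
their sum are non-zero. -/
theorem chain_ne_zero [Nontrivial B] {m : ℕ} (E : Fin m → B) {K w T : ℝ}
    (hsa : ∀ q, IsSelfAdjoint (E q)) (hcomm : ∀ q r, Commute (E q) (E r))
    (hnorm : ∀ q, ‖E q‖ ≤ K)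
    (hwidth : ∀ q, ∃ a ∈ spectrum ℝ (E q), ∃ b ∈ spectrum ℝ (E q), w ≤ b - a)
    (hprod : ∀ f : Fin m → ℝ → ℝ, (∀ q, Continuous (f q)) → (∀ q, cfc (f q) (E q) ≠ 0) →
      (List.ofFn fun q => cfc (f q) (E q)).prod ≠ 0)
    (hT : 0 < T) (hKT : 2 * K < T) (hm : 4 * T ≤ m * w) :
    cfc (posWave T) (∑ q, E q) ≠ 0 ∧ cfc (negWave T) (∑ q, E q) ≠ 0 := by
  choose lo hlo hi hhi hw using hwidth
  set S := ∑ q, E q
  have hS : IsSelfAdjoint S := by
    rw [IsSelfAdjoint, star_sum]
    exact Finset.sum_congr rfl fun q _ => (hsa q).star_eq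
  let A : ℕ → ℝ := fun j => ∑ q : Fin m, if (q : ℕ) < j then hi q else lo q
  have hA : ∀ j, A j ∈ spectrum ℝ S := fun j => sum_mem_spectrum E hsa hcomm hprod _ fun q => by
    split_ifs
    exacts [hhi q, hlo q]
  have habs : ∀ q t, t ∈ spectrum ℝ (E q) → |t| ≤ K := fun q t ht => by
    simpa using (spectrum.norm_le_norm_of_mem ht).trans (hnorm q)
  have hstep : ∀ j < m, A (j + 1) ≤ A j + 2 * K := by
    intro j hj
    have h1 : ∀ q : Fin m, (if (q : ℕ) < j + 1 then hi q else lo q) =
        (if (q : ℕ) < j then hi q else lo q) + if (⟨j, hj⟩ : Fin m) = q then hi q - lo q else 0 := by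
      intro q
      rcases lt_trichotomy (q : ℕ) j with h | h | h
      · rw [if_pos (by omega), if_pos h, if_neg (fun e => by rw [← e] at h; simp at h), add_zero]
      · rw [if_pos (by omega), if_neg (by omega), if_pos (Fin.ext h.symm)]
        ring
      · rw [if_neg (by omega), if_neg (by omega), if_neg (fun e => by rw [← e] at h; simp at h),
          add_zero]
    show ∑ q : Fin m, (if (q : ℕ) < j + 1 then hi q else lo q) ≤ _
    rw [Finset.sum_congr rfl fun q _ => h1 q, Finset.sum_add_distrib, Finset.sum_ite_eq,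
      if_pos (Finset.mem_univ _)]
    have := abs_le.1 (habs _ _ (hhi ⟨j, hj⟩))
    have := abs_le.1 (habs _ _ (hlo ⟨j, hj⟩))
    linarith
  have hAm : A 0 + m * w ≤ A m := by
    have : ∀ q : Fin m, lo q + w ≤ hi q := fun q => by linarith [hw q]
    calc A 0 + m * w = ∑ q : Fin m, (lo q + w) := by
          simp [A, Finset.sum_add_distrib]
      _ ≤ ∑ q : Fin m, hi q := Finset.sum_le_sum fun q _ => this q
      _ = A m := by simp [A]
  set k : ℤ := ⌈A 0 / (2 * T)⌉ with hk
  have hk1 : A 0 ≤ 2 * T * k := by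
    have := Int.le_ceil (A 0 / (2 * T))
    rw [div_le_iff₀ (by positivity)] at this
    linarith
  have hk2 : 2 * T * k < A 0 + 2 * T := by
    have := Int.ceil_lt_add_one (A 0 / (2 * T))
    rw [← hk, ← sub_lt_iff_lt_add, lt_div_iff₀ (by positivity)] at this
    linarith
  have hsin : ∀ t u : ℝ, t = u + 2 * T * k →
      Real.sin (Real.pi * t / T) = Real.sin (Real.pi * u / T) := fun t u h => by
    rw [h, show Real.pi * (u + 2 * T * k) / T = Real.pi * u / T + k * (2 * Real.pi) by
      field_simp, Real.sin_add_int_mul_two_pi]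
  constructor
  · obtain ⟨j, -, hjL, hjU⟩ := exists_step_mem_Ioo A (U := 2 * T * k + T) hk1
      (by linarith) hstep (by linarith)
    refine cfc_ne_zero_of_apply_ne_zero hS (continuous_posWave T) (hA j) ?_
    have hpos : 0 < Real.sin (Real.pi * A j / T) := by
      rw [hsin (A j) (A j - 2 * T * k) (by ring)]
      refine Real.sin_pos_of_pos_of_lt_pi ?_ ?_
      · exact div_pos (mul_pos Real.pi_pos (by linarith)) hT
      · rw [div_lt_iff₀ hT]
        exact mul_lt_mul_of_pos_left (by linarith) Real.pi_pos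
    rw [posWave, max_eq_left hpos.le]
    exact hpos.ne'
  · obtain ⟨j, -, hjL, hjU⟩ := exists_step_mem_Ioo A (L := 2 * T * k + T)
      (U := 2 * T * k + 2 * T) (by linarith) (by linarith) hstep (by linarith)
    refine cfc_ne_zero_of_apply_ne_zero hS (continuous_negWave T) (hA j) ?_
    have hneg : Real.sin (Real.pi * A j / T) < 0 := by
      rw [hsin (A j) (A j - 2 * T * k) (by ring), ← Real.sin_sub_two_pi]
      refine Real.sin_neg_of_neg_of_neg_pi_lt ?_ ?_
      · have : Real.pi * (A j - 2 * T * k) / T < 2 * Real.pi := by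
          rw [div_lt_iff₀ hT]
          nlinarith [Real.pi_pos]
        linarith
      · have : Real.pi < Real.pi * (A j - 2 * T * k) / T := by
          rw [lt_div_iff₀ hT]
          exact mul_lt_mul_of_pos_left (by linarith) Real.pi_pos
        linarith
    rw [negWave, max_eq_left (by linarith)]
    exact (neg_pos.2 hneg).ne'

section Slots

universe u

variable {R : Type u} [CStarAlgebra R] [PartialOrder R] [StarOrderedRing R]
  {ι : Type*} {N : ℕ} {δ : ℝ} {X : ι → Fin N → R}

/-- A product of non-zero elements of pairwise disjoint blocks is non-zero, given the case of two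
complementary blocks. -/
lemma list_prod_ne_zero_of_blocks [Nontrivial R] {κ : Type*}
    (hmul : ∀ (S : Set ι) (a b : R), a ∈ gen X S → b ∈ gen X Sᶜ → a ≠ 0 → b ≠ 0 → a * b ≠ 0)
    (blk : κ → Set ι) (hd : Pairwise fun p q => Disjoint (blk p) (blk q)) (a : κ → R)
    (ha : ∀ q, a q ∈ gen X (blk q)) (ha0 : ∀ q, a q ≠ 0) :
    ∀ l : List κ, l.Nodup → (l.map a).prod ≠ 0
  | [], _ => by simp
  | q :: l, hl => by
    obtain ⟨hq, hl⟩ := List.nodup_cons.1 hl
    rw [List.map_cons, List.prod_cons]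
    refine hmul (blk q) _ _ (ha q) ?_ (ha0 q) (list_prod_ne_zero_of_blocks hmul blk hd a ha ha0 l hl)
    refine list_prod_mem fun y hy => ?_
    obtain ⟨r, hr, rfl⟩ := List.mem_map.1 hy
    refine gen_mono ?_ (ha r)
    exact (hd (i := r) (j := q) fun e => hq (e ▸ hr)).subset_compl_right

/-- Sums of many elements from disjoint blocks, each of width at least `w`, have both waves
non-zero, given that products of non-zero elements of complementary blocks are non-zero. -/
theorem SimpleSlots.waves_ne_zero_of_mul [Nontrivial R] (h : SimpleSlots δ X)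
    (hmul : ∀ (S : Set ι) (a b : R), a ∈ gen X S → b ∈ gen X Sᶜ → a ≠ 0 → b ≠ 0 → a * b ≠ 0)
    {m : ℕ} (blk : Fin m → Set ι) (hd : Pairwise fun p q => Disjoint (blk p) (blk q))
    (E : Fin m → R) (hE : ∀ q, E q ∈ gen X (blk q)) (hsa : ∀ q, IsSelfAdjoint (E q))
    {K w T : ℝ} (hK : ∀ q, ‖E q‖ ≤ K)
    (hw : ∀ q, ∃ a ∈ spectrum ℝ (E q), ∃ b ∈ spectrum ℝ (E q), a + w ≤ b)
    (hT0 : 0 < T) (hT : 4 * K ≤ T) (hm : 4 * T ≤ m * w) :
    cfc (posWave T) (∑ q, E q) ≠ 0 ∧ cfc (negWave T) (∑ q, E q) ≠ 0 := by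
  have hcomm : ∀ q r, Commute (E q) (E r) := fun q r => by
    rcases eq_or_ne q r with rfl | hne
    · exact Commute.refl _
    · exact (starCommute_gen h.slots (hd hne) (hE q) (hE r)).1
  refine chain_ne_zero E hsa hcomm hK (fun q => ?_) (fun f _ hf => ?_) hT0 (by linarith) hm
  · obtain ⟨a, ha, b, hb, hab⟩ := hw q
    exact ⟨a, ha, b, hb, by linarith⟩
  · rw [List.ofFn_eq_map]
    exact list_prod_ne_zero_of_blocks hmul blk hd _
      (fun q => cfc_mem (𝕜' := ℂ) (f q) (hE q)) hf _ (List.nodup_finRange m)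

/-- Sums of many elements from disjoint blocks, each of width at least `w`, have both waves
non-zero. -/
theorem SimpleSlots.waves_ne_zero [Nontrivial R] (h : SimpleSlots δ X) {m : ℕ}
    (blk : Fin m → Set ι) (hd : Pairwise fun p q => Disjoint (blk p) (blk q))
    (E : Fin m → R) (hE : ∀ q, E q ∈ gen X (blk q)) (hsa : ∀ q, IsSelfAdjoint (E q))
    {K w T : ℝ} (hK : ∀ q, ‖E q‖ ≤ K)
    (hw : ∀ q, ∃ a ∈ spectrum ℝ (E q), ∃ b ∈ spectrum ℝ (E q), a + w ≤ b)
    (hT0 : 0 < T) (hT : 4 * K ≤ T) (hm : 4 * T ≤ m * w) :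
    cfc (posWave T) (∑ q, E q) ≠ 0 ∧ cfc (negWave T) (∑ q, E q) ≠ 0 :=
  h.waves_ne_zero_of_mul (fun _ _ _ ha hb => h.mul_ne_zero ha hb) blk hd E hE hsa hK hw hT0 hT hm

end Slots

end Vale.Agent.P101
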