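import Vale.Agent.P101.Orth.Tensor
import Vale.Agent.P101.Orth.Chain

/-!
# P101: the ORTH step

`E` is a sum over pairs of `2N + 1` slots of `d_i ⊗ d_i`, where the `d_i` are the real and
imaginary parts of the square-zero elements.  It is central in no simple quotient, so its spectral
width is uniformly bounded below; a long sum of copies of `E` then carries two orthogonal
non-vanishing wave functions in every simple quotient.
-/

noncomputable section

namespace Vale.Agent.P101

universe u

open scoped ENNReal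

/-- Self-adjoint parts of a family (up to the factor two). -/
def selfParts {A : Type u} [CStarAlgebra A] {N : ℕ} (x : Fin N → A) (i : Fin N × Bool) : A :=
  if i.2 then x i.1 + star (x i.1) else Complex.I • (x i.1 - star (x i.1))

/-- The pairs of slots. -/
def slotPairs (r : ℕ) : Finset (Fin r × Fin r) := Finset.univ.filter fun p => p.1 < p.2

/-- The element `E` of a block of slots. -/
def pairSum {A : Type u} [CStarAlgebra A] {N r : ℕ} (Y : Fin r → Fin N → A) : A :=
  ∑ p ∈ slotPairs r, ∑ i, selfParts (Y p.1) i * selfParts (Y p.2) i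

/-- The bound on `‖E‖`. -/
def pairBound (N r : ℕ) : ℝ := ((slotPairs r).card : ℝ) * (8 * N)

section Basic

variable {A : Type u} [CStarAlgebra A] {N r : ℕ}

theorem selfParts_star (x : Fin N → A) (i : Fin N × Bool) :
    star (selfParts x i) = selfParts x i := by
  unfold selfParts
  split
  · rw [star_add, star_star, add_comm]
  · rw [star_smul, star_sub, star_star, Complex.star_def, Complex.conj_I, neg_smul, ← smul_neg,
      neg_sub]

theorem norm_selfParts_le (x : Fin N → A) (hx : ∀ j, ‖x j‖ ≤ 1) (i : Fin N × Bool) :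
    ‖selfParts x i‖ ≤ 2 := by
  have := hx i.1
  unfold selfParts
  split
  · exact (norm_add_le _ _).trans (by rw [norm_star]; linarith)
  · rw [norm_smul, Complex.norm_I, one_mul]
    exact (norm_sub_le _ _).trans (by rw [norm_star]; linarith)

theorem map_selfParts {B : Type u} [CStarAlgebra B] (φ : A →⋆ₐ[ℂ] B) (x : Fin N → A)
    (i : Fin N × Bool) : φ (selfParts x i) = selfParts (fun j => φ (x j)) i := by
  unfold selfParts
  split <;> simp [map_star]

theorem map_pairSum {B : Type u} [CStarAlgebra B] (φ : A →⋆ₐ[ℂ] B) (Y : Fin r → Fin N → A) :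
    φ (pairSum Y) = pairSum (fun s j => φ (Y s j)) := by
  simp [pairSum, map_selfParts]

theorem selfParts_mem (S : StarSubalgebra ℂ A) (x : Fin N → A) (hx : ∀ j, x j ∈ S)
    (i : Fin N × Bool) : selfParts x i ∈ S := by
  unfold selfParts
  split
  · exact add_mem (hx _) (star_mem (hx _))
  · exact SMulMemClass.smul_mem _ (sub_mem (hx _) (star_mem (hx _)))

theorem pairSum_mem (S : StarSubalgebra ℂ A) (Y : Fin r → Fin N → A) (hY : ∀ s j, Y s j ∈ S) :
    pairSum Y ∈ S :=
  sum_mem fun _ _ => sum_mem fun i _ =>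
    mul_mem (selfParts_mem S _ (hY _) i) (selfParts_mem S _ (hY _) i)

theorem norm_pairSum_le (Y : Fin r → Fin N → A) (hY : ∀ s j, ‖Y s j‖ ≤ 1) :
    ‖pairSum Y‖ ≤ pairBound N r := by
  refine (norm_sum_le_of_le _ (n := fun _ => (8 * N : ℝ)) fun p _ => ?_).trans
    (by simp [pairBound])
  refine (norm_sum_le_of_le _ (n := fun _ => (4 : ℝ)) fun i _ => ?_).trans (le_of_eq ?_)
  · refine (norm_mul_le _ _).trans ?_
    nlinarith [norm_selfParts_le (Y p.1) (hY p.1) i, norm_selfParts_le (Y p.2) (hY p.2) i,
      norm_nonneg (selfParts (Y p.1) i), norm_nonneg (selfParts (Y p.2) i)]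
  · simp; ring

variable [PartialOrder A] [StarOrderedRing A]

theorem commute_selfParts {δ : ℝ} {X : Fin r → Fin N → A} (hX : IsSlots δ X) {s t : Fin r}
    (hst : s ≠ t) (i k : Fin N × Bool) : Commute (selfParts (X s) i) (selfParts (X t) k) := by
  have hs : selfParts (X s) i ∈ gen X {s} :=
    selfParts_mem (gen X {s}) (X s) (fun j => slot_mem_gen (Set.mem_singleton s) j) i
  have ht : selfParts (X t) k ∈ gen X {t} :=
    selfParts_mem (gen X {t}) (X t) (fun j => slot_mem_gen (Set.mem_singleton t) j) k
  exact (starCommute_gen hX (Set.disjoint_singleton.2 hst) hs ht).1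

theorem isSelfAdjoint_pairSum {δ : ℝ} {X : Fin r → Fin N → A} (hX : IsSlots δ X) :
    IsSelfAdjoint (pairSum X) := by
  refine isSelfAdjoint_sum _ fun p hp => isSelfAdjoint_sum _ fun i _ => ?_
  have hne : p.1 ≠ p.2 := ne_of_lt (by simpa [slotPairs] using hp)
  rw [IsSelfAdjoint, star_mul, selfParts_star, selfParts_star]
  exact (commute_selfParts hX hne i i).symm.eq

/-- The real and imaginary parts of one slot do not all commute. -/
theorem exists_selfParts_not_commute [Nontrivial A] {δ : ℝ} (hδ : 0 < δ) {x : Fin N → A}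
    (hx : SqZeroFamily δ x) : ∃ k i, ¬ Commute (selfParts x k) (selfParts x i) := by
  by_contra hall
  push Not at hall
  have h0 : ∀ j, star (x j) * x j = 0 := fun j => by
    have h := (hall (j, true) (j, false)).eq
    have hI : ((x j + star (x j)) * (x j - star (x j)) : A)
        = (x j - star (x j)) * (x j + star (x j)) := by
      have := congrArg (fun y => (-Complex.I) • y) h
      simpa [selfParts, smul_smul] using this
    have hn : star (x j) * x j = x j * star (x j) := by
      have e : (x j + star (x j)) * (x j - star (x j)) - (x j - star (x j)) * (x j + star (x j))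
          = (2 : ℂ) • (star (x j) * x j - x j * star (x j)) := by
        rw [two_smul]; noncomm_ring
      rw [hI, sub_self, eq_comm, smul_eq_zero_iff_right (two_ne_zero), sub_eq_zero] at e
      exact e
    have hsq : star (star (x j) * x j) * (star (x j) * x j) = 0 := by
      rw [star_mul, star_star]
      calc star (x j) * x j * (star (x j) * x j) = star (x j) * (x j * star (x j)) * x j := by
            simp only [mul_assoc]
        _ = star (x j) * star (x j) * (x j * x j) := by rw [← hn]; simp only [mul_assoc]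
        _ = 0 := by rw [hx.sq j, mul_zero]
    exact (CStarRing.star_mul_self_eq_zero_iff _).1 hsq
  have hb := hx.bound
  simp only [h0, Finset.sum_const_zero] at hb
  have hsa : IsSelfAdjoint (0 : A) := IsSelfAdjoint.zero A
  have := (algebraMap_le_iff_le_spectrum (r := δ) hsa).1 hb 0 (by simp)
  linarith

end Basic

section Central

variable {R : Type u} [CStarAlgebra R] [PartialOrder R] [StarOrderedRing R] [Nontrivial R]

/-- In a simple quotient `E` is not central. -/
theorem SimpleSlots.pairSum_not_commute {N : ℕ} {δ : ℝ} (hδ : 0 < δ)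
    {X : Fin (2 * N + 1) → Fin N → R} (h : SimpleSlots δ X) :
    ∃ s j, ¬ Commute (pairSum X) (X s j) := by
  classical
  by_contra hall
  push Not at hall
  have hX := h.slots
  set d := fun s => selfParts (X s) with hd
  have hEd : ∀ s i, d s i * pairSum X = pairSum X * d s i := fun s i => by
    have hstar : ∀ j, Commute (pairSum X) (star (X s j)) := fun j => by
      have := (hall s j).star_star
      rwa [(isSelfAdjoint_pairSum hX).star_eq] at this
    simp only [hd, selfParts]
    split
    · exact (((hall s _).add_right (hstar _)).symm).eq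
    · exact ((((hall s _).sub_right (hstar _)).smul_right _).symm).eq
  have orth : ∀ s t, s ≠ t → ∀ k l,
      ∑ i, (d s k * d s i - d s i * d s k) * (d t l * d t i - d t i * d t l) = 0 := by
    intro s t hst k l
    let D : R → R := fun z =>
      d s k * (d t l * z - z * d t l) - (d t l * z - z * d t l) * d s k
    let Dh : R →+ R := AddMonoidHom.mk' D (fun a b => by simp only [D]; noncomm_ring)
    have hDE : Dh (pairSum X) = 0 := by
      show D (pairSum X) = 0
      simp only [D, hEd t l, sub_self, mul_zero, zero_mul]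
    set p₀ : Fin (2 * N + 1) × Fin (2 * N + 1) := if s < t then (s, t) else (t, s) with hp₀
    have hp₀mem : p₀ ∈ slotPairs (2 * N + 1) := by
      rw [hp₀]
      rcases lt_or_gt_of_ne hst with hlt | hlt
      · simp [slotPairs, hlt]
      · simp [slotPairs, hlt, not_lt.2 hlt.le]
    have hcc : ∀ {a b : Fin (2 * N + 1)}, a ≠ b → ∀ i i', Commute (d a i) (d b i') :=
      fun hab i i' => commute_selfParts hX hab i i'
    rw [← hDE, pairSum, map_sum, Finset.sum_eq_single p₀ ?_ (absurd hp₀mem), map_sum]
    · refine Finset.sum_congr rfl fun i _ => ?_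
      have hval : selfParts (X p₀.1) i * selfParts (X p₀.2) i = d s i * d t i := by
        rw [hp₀]
        split
        · rfl
        · exact (hcc hst.symm i i).eq
      rw [hval]
      show _ = D _
      have e1 : d t l * (d s i * d t i) - d s i * d t i * d t l
          = d s i * (d t l * d t i - d t i * d t l) := by
        rw [← mul_assoc, (hcc hst.symm l i).eq]; noncomm_ring
      have hc : Commute (d s k) (d t l * d t i - d t i * d t l) :=
        ((hcc hst k l).mul_right (hcc hst k i)).sub_right ((hcc hst k i).mul_right (hcc hst k l))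
      simp only [D, e1]
      rw [sub_mul (d s k * d s i) (d s i * d s k), mul_assoc (d s i) (d s k), hc.eq]
      noncomm_ring
    · intro p hp hne
      rw [map_sum]
      refine Finset.sum_eq_zero fun i _ => ?_
      have hlt : p.1 < p.2 := by simpa [slotPairs] using hp
      show D (d p.1 i * d p.2 i) = 0
      by_cases ht : t ≠ p.1 ∧ t ≠ p.2
      · have := ((hcc ht.1 l i).mul_right (hcc ht.2 l i)).eq
        simp only [D, this, sub_self, mul_zero, zero_mul]
      · have hs : s ≠ p.1 ∧ s ≠ p.2 := by
          by_contra hs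
          apply hne
          rw [hp₀]
          rcases p with ⟨a, b⟩
          simp only [ne_eq, not_and_or, not_not] at ht hs
          rcases ht with rfl | rfl <;> rcases hs with rfl | rfl
          · exact absurd rfl hst
          · simp [not_lt.2 (le_of_lt hlt)]
          · simp [hlt]
          · exact absurd rfl hst
        have c0 := (hcc hst k l)
        have c1 := (hcc hs.1 k i).mul_right (hcc hs.2 k i)
        have := ((c0.mul_right c1).sub_right (c1.mul_right c0)).eq
        simp only [D, this, sub_self]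
  -- one non-zero real vector per slot
  have hv : ∀ s, ∃ (k : Fin N × Bool) (φ : R →ₗ[ℂ] ℂ) (v : Fin N × Bool → ℝ),
      v ≠ 0 ∧ ∀ i, φ (Complex.I • (d s k * d s i - d s i * d s k)) = v i := by
    intro s
    obtain ⟨k, i₀, hki⟩ := exists_selfParts_not_commute hδ (hX.fam s)
    set a := fun i => Complex.I • (d s k * d s i - d s i * d s k) with ha
    have hsa : ∀ i, star (a i) = a i := fun i => by
      simp only [ha, hd, star_smul, star_sub, star_mul, selfParts_star, Complex.star_def,
        Complex.conj_I]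
      rw [neg_smul, ← smul_neg, neg_sub]
    have ha0 : a i₀ ≠ 0 := smul_ne_zero Complex.I_ne_zero (sub_ne_zero.2 hki)
    obtain ⟨f, hf⟩ := SeparatingDual.exists_eq_one (R := ℂ) ha0
    let φ : R →ₗ[ℂ] ℂ :=
      { toFun := fun x => f x + star (f (star x))
        map_add' := fun x y => by simp only [star_add, map_add]; abel
        map_smul' := fun c x => by
          simp only [star_smul, map_smul, smul_eq_mul, star_mul', star_star, RingHom.id_apply]
          ring }
    refine ⟨k, φ, fun i => 2 * (f (a i)).re, fun hv0 => ?_, fun i => ?_⟩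
    · have := congrFun hv0 i₀
      simp [hf] at this
    · show f (a i) + star (f (star (a i))) = _
      rw [hsa i, Complex.star_def, Complex.add_conj]
  choose k φ v hv0 hφ using hv
  have horth : ∀ s t, s ≠ t → ∑ i, v s i * v t i = 0 := by
    intro s t hst
    have hmem : ∀ (T : Set (Fin (2 * N + 1))) (a : Fin (2 * N + 1)), a ∈ T → ∀ k i,
        Complex.I • (d a k * d a i - d a i * d a k) ∈ gen X T := fun T a ha k i => by
      have hd' : ∀ i, d a i ∈ gen X T := fun i =>
        selfParts_mem _ _ (fun j => slot_mem_gen ha j) i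
      exact SMulMemClass.smul_mem _ (sub_mem (mul_mem (hd' k) (hd' i)) (mul_mem (hd' i) (hd' k)))
    have h0 : ∑ i, Complex.I • (d s (k s) * d s i - d s i * d s (k s))
        * (Complex.I • (d t (k t) * d t i - d t i * d t (k t))) = 0 := by
      simp only [smul_mul_assoc, mul_smul_comm, smul_smul, ← Finset.smul_sum,
        orth s t hst (k s) (k t), smul_zero]
    have := h.sum_functional (T := {s}) _ _ (fun i => hmem _ s (Set.mem_singleton s) (k s) i)
      (fun i => hmem _ t (by simpa using hst.symm) (k t) i) h0 (φ s) (φ t)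
    simp only [hφ, ← Complex.ofReal_mul, ← Complex.ofReal_sum, Complex.ofReal_eq_zero] at this
    exact this
  have hli : LinearIndependent ℝ (fun s => (WithLp.toLp 2 (v s) : EuclideanSpace ℝ (Fin N × Bool))) := by
    refine linearIndependent_of_ne_zero_of_inner_eq_zero (fun s hs => hv0 s ?_) ?_
    · exact congrArg WithLp.ofLp hs
    · intro s t hst
      rw [EuclideanSpace.inner_toLp_toLp]
      simpa [dotProduct] using horth t s hst.symm
  have := hli.fintype_card_le_finrank
  simp at this
  omega

end Central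

/-- The witness of non-centrality of `E`. -/
def commutatorSum {A : Type u} [CStarAlgebra A] {N r : ℕ} (Y : Fin r → Fin N → A) : A :=
  ∑ s, ∑ j, star (pairSum Y * Y s j - Y s j * pairSum Y) * (pairSum Y * Y s j - Y s j * pairSum Y)

/-- The spectral width of `E` is uniformly bounded below. -/
theorem exists_pairSum_width (N : ℕ) (δ : ℝ) (hδ : 0 < δ) :
    ∃ w : ℝ, 0 < w ∧ ∀ (B : Type u) [CStarAlgebra B] [PartialOrder B] [StarOrderedRing B]
      [Nontrivial B] (Y : Fin (2 * N + 1) → Fin N → B), IsSlots δ Y →
        ∃ a ∈ spectrum ℝ (pairSum Y), ∃ b ∈ spectrum ℝ (pairSum Y), a + w ≤ b := by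
  by_contra hcon
  have hc : ∀ n : ℕ, ∃ (B : Type u) (_ : CStarAlgebra B) (_ : PartialOrder B)
      (_ : StarOrderedRing B) (_ : Nontrivial B) (Y : Fin (2 * N + 1) → Fin N → B),
      IsSlots δ Y ∧ ∀ a ∈ spectrum ℝ (pairSum Y), ∀ b ∈ spectrum ℝ (pairSum Y),
        b < a + 1 / ((n : ℝ) + 1) := by
    intro n
    by_contra hn
    push Not at hn
    exact hcon ⟨1 / ((n : ℝ) + 1), by positivity, hn⟩
  choose B instA instP instS instN Y hY hnarrow using hc
  let _ := prodCStarAlgebra B
  let _ : PartialOrder (lp B ∞) := CStarAlgebra.spectralOrder (lp B ∞)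
  have : StarOrderedRing (lp B ∞) := CStarAlgebra.spectralOrderedRing (lp B ∞)
  let Z : Fin (2 * N + 1) → Fin N → lp B ∞ := fun s j => ⟨fun n => Y n s j, memℓp_infty ⟨1, by
    rintro _ ⟨n, rfl⟩
    exact ((hY n).fam s).norm_le j⟩⟩
  have hZ : IsSlots δ Z := by
    refine ⟨fun s => ⟨fun j => lp.ext (funext fun n => ((hY n).fam s).sq j),
      fun j => lp.norm_le_of_forall_le zero_le_one fun n => ((hY n).fam s).norm_le j, ?_⟩,
      fun s t hst i j => ⟨lp.ext (funext fun n => ((hY n).comm s t hst i j).1),
        lp.ext (funext fun n => ((hY n).comm s t hst i j).2)⟩⟩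
    rw [← sub_nonneg]
    set d := ∑ j, star (Z s j) * Z s j - algebraMap ℝ (lp B ∞) δ with hd
    have hdn : ∀ n, (0 : B n) ≤ d n := fun n => by
      have hn := sub_nonneg.2 ((hY n).fam s).bound
      rw [show (d n : B n) = prodEval B n d from rfl, hd, map_sub, map_sum]
      simp only [map_mul, map_star, Algebra.algebraMap_eq_smul_one]
      rw [show prodEval B n (δ • (1 : lp B ∞)) = δ • (1 : B n) from rfl]
      rw [Algebra.algebraMap_eq_smul_one] at hn
      exact hn
    have hbd : BddAbove (Set.range fun n => ‖CFC.sqrt (d n)‖) := by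
      refine ⟨√‖d‖, ?_⟩
      rintro _ ⟨n, rfl⟩
      refine Real.le_sqrt_of_sq_le ?_
      have hsa := (IsSelfAdjoint.of_nonneg (CFC.sqrt_nonneg (d n))).star_eq
      rw [sq, ← CStarRing.norm_star_mul_self, hsa, CFC.sqrt_mul_sqrt_self (d n) (hdn n)]
      exact lp.norm_apply_le_norm ENNReal.top_ne_zero d n
    let q : lp B ∞ := ⟨fun n => CFC.sqrt (d n), memℓp_infty hbd⟩
    have hq : d = star q * q := lp.ext (funext fun n => by
      show d n = star (CFC.sqrt (d n)) * CFC.sqrt (d n)
      rw [(IsSelfAdjoint.of_nonneg (CFC.sqrt_nonneg (d n))).star_eq,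
        CFC.sqrt_mul_sqrt_self (d n) (hdn n)])
    calc (0 : lp B ∞) ≤ star q * q := star_mul_self_nonneg q
      _ = _ := hq.symm
  have hZmem : ∀ s j, Z s j ∈ gen Z Set.univ := fun s j => slot_mem_gen (Set.mem_univ s) j
  have hFmem : commutatorSum Z ∈ gen Z Set.univ := by
    have hE := pairSum_mem _ Z hZmem
    exact sum_mem fun s _ => sum_mem fun j _ => by
      have := sub_mem (mul_mem hE (hZmem s j)) (mul_mem (hZmem s j) hE)
      exact mul_mem (star_mem this) this
  have hfull : IsFull (commutatorSum Z) := by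
    refine isFull_of_forall_simple Z hZ hFmem
      (Finset.sum_nonneg fun _ _ => Finset.sum_nonneg fun _ _ => star_mul_self_nonneg _) ?_
    intro R _ _ _ _ π hπ h0
    obtain ⟨s, j, hsj⟩ := hπ.pairSum_not_commute hδ
    apply hsj
    set W : Fin (2 * N + 1) → Fin N → gen Z Set.univ := fun s j => ⟨Z s j, hZmem s j⟩ with hW
    have hval : commutatorSum Z = ((commutatorSum W : gen Z Set.univ) : lp B ∞) := by
      have hEq : pairSum Z = ((pairSum W : gen Z Set.univ) : lp B ∞) :=
        (map_pairSum (gen Z Set.univ).subtype W).symm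
      simp only [commutatorSum, hEq]
      push_cast
      rfl
    have h1 : π (commutatorSum W) = 0 := by
      rw [← h0]
      exact congrArg π (Subtype.ext hval.symm)
    rw [show π (commutatorSum W) = commutatorSum (fun s j => π (W s j)) by
      simp [commutatorSum, map_pairSum, map_star]] at h1
    have h2 := (Finset.sum_eq_zero_iff_of_nonneg
      (fun _ _ => Finset.sum_nonneg fun _ _ => star_mul_self_nonneg _)).1 h1 s (Finset.mem_univ s)
    have h3 := (Finset.sum_eq_zero_iff_of_nonneg
      (fun _ _ => star_mul_self_nonneg _)).1 h2 j (Finset.mem_univ j)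
    exact sub_eq_zero.1 ((CStarRing.star_mul_self_eq_zero_iff _).1 h3)
  obtain ⟨k, c, hc⟩ := hfull
  set M : ℝ := ∑ i, ‖c i‖ * ‖c i‖ * ((2 * N + 1 : ℕ) * N * 4) with hM
  have hM0 : 0 ≤ M := by positivity
  obtain ⟨n, hn⟩ := exists_nat_gt M
  have hcn := congrArg (prodEval B n) hc
  simp only [map_sum, map_mul, map_star, map_one] at hcn
  have hFn : prodEval B n (commutatorSum Z) = commutatorSum (Y n) := by
    simp only [commutatorSum, map_sum, map_mul, map_star, map_sub, map_pairSum]
    rfl
  rw [hFn] at hcn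
  set ε : ℝ := 1 / ((n : ℝ) + 1) with hε
  have hε0 : 0 < ε := by rw [hε]; positivity
  have hsa := isSelfAdjoint_pairSum (hY n)
  obtain ⟨a₀, ha₀⟩ : (spectrum ℝ (pairSum (Y n))).Nonempty :=
    ContinuousFunctionalCalculus.spectrum_nonempty _ hsa
  have hdist : ‖pairSum (Y n) - algebraMap ℝ (B n) a₀‖ ≤ ε := by
    rw [show pairSum (Y n) - algebraMap ℝ (B n) a₀
        = cfc (fun t : ℝ => t - a₀) (pairSum (Y n)) by
      rw [cfc_sub (fun t : ℝ => t) (fun _ => a₀), cfc_id' ℝ _ hsa, cfc_const a₀ _ hsa]]
    refine norm_cfc_le hε0.le fun t ht => ?_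
    rw [Real.norm_eq_abs, abs_le]
    constructor <;> linarith [hnarrow n a₀ ha₀ t ht, hnarrow n t ht a₀ ha₀]
  have hcomm : ∀ s j, ‖pairSum (Y n) * Y n s j - Y n s j * pairSum (Y n)‖ ≤ 2 * ε := by
    intro s j
    set e := pairSum (Y n) - algebraMap ℝ (B n) a₀ with he
    have e1 : pairSum (Y n) * Y n s j - Y n s j * pairSum (Y n) = e * Y n s j - Y n s j * e := by
      rw [he, sub_mul, mul_sub, Algebra.commutes a₀ (Y n s j)]; abel
    rw [e1]
    calc ‖e * Y n s j - Y n s j * e‖ ≤ ‖e * Y n s j‖ + ‖Y n s j * e‖ := norm_sub_le _ _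
      _ ≤ ‖e‖ * ‖Y n s j‖ + ‖Y n s j‖ * ‖e‖ := add_le_add (norm_mul_le _ _) (norm_mul_le _ _)
      _ ≤ ε * 1 + 1 * ε := by
        have := ((hY n).fam s).norm_le j
        gcongr
      _ = 2 * ε := by ring
  have hFle : ‖commutatorSum (Y n)‖ ≤ (2 * N + 1 : ℕ) * N * 4 * ε := by
    refine (norm_sum_le_of_le _ (n := fun _ => (N : ℝ) * 4 * ε) fun s _ => ?_).trans
      (le_of_eq (by simp; ring))
    refine (norm_sum_le_of_le _ (n := fun _ => (4 : ℝ) * ε) fun j _ => ?_).trans
      (le_of_eq (by simp; ring))
    rw [CStarRing.norm_star_mul_self]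
    have h1 := hcomm s j
    have h2 : ε ≤ 1 := by
      rw [hε, div_le_one (by positivity)]; linarith [Nat.cast_nonneg (α := ℝ) n]
    nlinarith [norm_nonneg (pairSum (Y n) * Y n s j - Y n s j * pairSum (Y n))]
  have hone : (1 : ℝ) ≤ M * ε := by
    rw [← CStarRing.norm_one (E := B n), ← hcn, hM, Finset.sum_mul]
    refine norm_sum_le_of_le _ fun i _ => ?_
    have hci : ‖prodEval B n (c i)‖ ≤ ‖c i‖ := lp.norm_apply_le_norm ENNReal.top_ne_zero (c i) n
    calc ‖star (prodEval B n (c i)) * commutatorSum (Y n) * prodEval B n (c i)‖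
        ≤ ‖prodEval B n (c i)‖ * ‖commutatorSum (Y n)‖ * ‖prodEval B n (c i)‖ := by
          refine norm_mul₃_le.trans ?_
          rw [norm_star]
      _ ≤ ‖c i‖ * ((2 * N + 1 : ℕ) * N * 4 * ε) * ‖c i‖ := by gcongr
      _ = _ := by ring
  rw [hε, mul_one_div, le_div_iff₀ (by positivity)] at hone
  linarith

/-- Two orthogonal full positive elements with a uniform bound. -/
theorem orthStatement : OrthStatement.{u} := by
  intro N δ hδ
  obtain ⟨w, hw, hwidth⟩ := exists_pairSum_width.{u} N δ hδ
  set K : ℝ := pairBound N (2 * N + 1) with hK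
  have hK0 : 0 ≤ K := by rw [hK, pairBound]; positivity
  set T : ℝ := 4 * K + 1 with hT
  obtain ⟨m₀, hm₀⟩ := exists_nat_gt (4 * T / w)
  set m : ℕ := m₀ * (2 * N + 1) with hm
  suffices h : ∀ (B : Type u) [CStarAlgebra B] [PartialOrder B] [StarOrderedRing B]
      (X : Fin m → Fin N → B), IsSlots δ X →
        ∃ fg : Fin 2 → B, (0 ≤ fg 0 ∧ 0 ≤ fg 1 ∧ fg 0 * fg 1 = 0) ∧
          ∀ i ∈ (Finset.univ : Finset (Fin 2)), IsFull (fg i) by
    obtain ⟨k, hk⟩ := uniform_fullBy.{u}
      (fun B _ _ _ _ fg => 0 ≤ fg 0 ∧ 0 ≤ fg 1 ∧ fg 0 * fg 1 = 0)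
      (fun B C _ _ _ _ _ _ φ X fg hfg => ⟨map_nonneg φ hfg.1, map_nonneg φ hfg.2.1,
        by rw [← map_mul, hfg.2.2, map_zero]⟩) Finset.univ h
    refine ⟨m, k, fun B _ _ _ X hX => ?_⟩
    obtain ⟨fg, hfg, hfull⟩ := hk B X hX
    exact ⟨fg 0, fg 1, hfg.1, hfg.2.1, hfg.2.2, hfull 0 (Finset.mem_univ _),
      hfull 1 (Finset.mem_univ _)⟩
  intro B _ _ _ X hX
  have hmem : ∀ s j, X s j ∈ gen X Set.univ := fun s j => slot_mem_gen (Set.mem_univ s) j
  let W : Fin m → Fin N → gen X Set.univ := fun s j => ⟨X s j, hmem s j⟩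
  have hW : IsSlots δ W := hX.codRestrict (gen X Set.univ) hmem
  let e : Fin m₀ → Fin (2 * N + 1) → Fin m := fun q s => finProdFinEquiv (q, s)
  have he : ∀ q, Function.Injective (e q) := fun q s t hst =>
    (Prod.ext_iff.1 (finProdFinEquiv.injective hst)).2
  let S : gen X Set.univ := ∑ q, pairSum (fun s => W (e q s))
  have hSsa : IsSelfAdjoint S :=
    isSelfAdjoint_sum _ fun q _ => isSelfAdjoint_pairSum (hW.comp (e q) (he q))
  let f : gen X Set.univ := cfc (posWave T) S
  let g : gen X Set.univ := cfc (negWave T) S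
  have hf0 : 0 ≤ f := cfc_nonneg fun t _ => posWave_nonneg T t
  have hg0 : 0 ≤ g := cfc_nonneg fun t _ => negWave_nonneg T t
  have hfg : f * g = 0 := by
    show cfc (posWave T) S * cfc (negWave T) S = 0
    rw [← cfc_mul (posWave T) (negWave T) S (continuous_posWave T).continuousOn
      (continuous_negWave T).continuousOn]
    simp only [posWave_mul_negWave, cfc_const_zero]
  refine ⟨![(f : B), (g : B)], ⟨hf0, hg0, congrArg Subtype.val hfg⟩, fun i _ => ?_⟩
  have key : ∀ (R : Type u) [CStarAlgebra R] [PartialOrder R] [StarOrderedRing R] [Nontrivial R]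
      (π : gen X Set.univ →⋆ₐ[ℂ] R), SimpleSlots δ (fun s j => π (W s j)) →
        π f ≠ 0 ∧ π g ≠ 0 := by
    intro R _ _ _ _ π hπ
    have hdist : Pairwise fun p q => Disjoint (Set.range (e p)) (Set.range (e q)) := by
      intro p q hpq
      rw [Set.disjoint_left]
      rintro _ ⟨s, rfl⟩ ⟨t, hst⟩
      exact hpq (Prod.ext_iff.1 (finProdFinEquiv.injective hst)).1.symm
    have hm4 : 4 * T ≤ (m₀ : ℝ) * w := by
      rw [div_lt_iff₀ hw] at hm₀
      exact hm₀.le
    have hS : π S = ∑ q, pairSum (fun s j => π (W (e q s) j)) := by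
      simp only [S, map_sum, map_pairSum]
    have hR := hπ.waves_ne_zero_of_mul (fun S a b => hπ.mul_ne_zero) (fun q => Set.range (e q)) hdist
      (fun q => pairSum (fun s j => π (W (e q s) j)))
      (fun q => pairSum_mem _ _ fun s j => slot_mem_gen (Set.mem_range_self (f := e q) s) j)
      (fun q => isSelfAdjoint_pairSum (hπ.slots.comp (e q) (he q))) (K := K) (w := w) (T := T)
      (fun q => norm_pairSum_le _ fun s j => (hπ.slots.fam (e q s)).norm_le j)
      (fun q => hwidth R _ (hπ.slots.comp (e q) (he q))) (by linarith) (by linarith) hm4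
    rw [← hS] at hR
    have hc := continuous_posWave T
    have hc' := continuous_negWave T
    have hπc : Continuous π := map_continuous π
    constructor
    · rw [show π f = cfc (posWave T) (π S) from
        StarAlgHomClass.map_cfc π (posWave T) S hc.continuousOn hπc hSsa (hSsa.map π)]
      exact hR.1
    · rw [show π g = cfc (negWave T) (π S) from
        StarAlgHomClass.map_cfc π (negWave T) S hc'.continuousOn hπc hSsa (hSsa.map π)]
      exact hR.2
  fin_cases i
  · exact isFull_of_forall_simple X hX f.2 hf0 fun R _ _ _ _ π hπ => (key R π hπ).1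
  · exact isFull_of_forall_simple X hX g.2 hg0 fun R _ _ _ _ π hπ => (key R π hπ).2

end Vale.Agent.P101
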