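import Mathlib

/-!
# P101: random colouring of the grid (finite combinatorics for the ORTH step)

There is a two-colouring `σ` of `Q × Q`, `Q = (Fin N → Fin (M+1))`, such that for any two lists
of `ℓ` well separated points of `Q` and any colour, some pair of points has a constantly
coloured neighbourhood of radius one, provided `M ≤ C * ℓ` and `ℓ` is large.
-/

namespace Vale.Agent.P101

/-- The grid `{0..M}^N`. -/
abbrev Grid (N M : ℕ) := Fin N → Fin (M + 1)

/-- Sup-distance at most one. -/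
def GridNear {N M : ℕ} (p q : Grid N M) : Prop :=
  ∀ j, (p j : ℕ) ≤ q j + 1 ∧ (q j : ℕ) ≤ p j + 1

/-- A list of points, any two of which differ by at least `3` in some coordinate. -/
def GridSeparated {N M ℓ : ℕ} (q : Fin ℓ → Grid N M) : Prop :=
  ∀ i k, i ≠ k → ∃ j, (q i j : ℕ) + 3 ≤ q k j ∨ (q k j : ℕ) + 3 ≤ q i j

open scoped Classical in
/-- Counting: colourings avoiding a colour on each of a disjoint family of blocks. -/
lemma card_avoid_le {Ω ι : Type*} [Fintype Ω] (I : Finset ι) (blk : ι → Finset Ω) (b : Bool)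
    (K : ℕ) (hK : ∀ x ∈ I, (blk x).card ≤ K)
    (hd : ∀ x ∈ I, ∀ y ∈ I, x ≠ y → Disjoint (blk x) (blk y)) :
    (Finset.univ.filter (fun s : Ω → Bool => ∀ x ∈ I, ∃ w ∈ blk x, s w ≠ b)).card
        * (2 ^ K) ^ I.card
      ≤ (2 ^ K - 1) ^ I.card * 2 ^ Fintype.card Ω := by
  induction I using Finset.induction_on with
  | empty => simp [Finset.card_univ]
  | @insert a I ha ih =>
    set S := Finset.univ.filter (fun s : Ω → Bool => ∀ x ∈ I, ∃ w ∈ blk x, s w ≠ b) with hS
    have ihS := ih (fun x hx => hK x (Finset.mem_insert_of_mem hx))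
      (fun x hx y hy => hd x (Finset.mem_insert_of_mem hx) y (Finset.mem_insert_of_mem hy))
    set G := S.filter (fun s => ∀ w ∈ blk a, s w = b) with hG
    have key : S.card ≤ G.card * 2 ^ K := by
      have h1 : S.card ≤ (G ×ˢ (Finset.univ : Finset ({w // w ∈ blk a} → Bool))).card := by
        apply Finset.card_le_card_of_injOn
          (fun s => ((fun w => if w ∈ blk a then b else s w), fun w => s w.1))
        · intro s hs
          simp only [Finset.mem_coe] at hs ⊢
          simp only [hS, Finset.mem_filter, Finset.mem_univ, true_and] at hs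
          simp only [hG, hS, Finset.mem_product, Finset.mem_filter, Finset.mem_univ, true_and,
            and_true]
          refine ⟨fun x hx => ?_, fun w hw => by simp [hw]⟩
          obtain ⟨w, hw, hne⟩ := hs x hx
          refine ⟨w, hw, ?_⟩
          have hwa : w ∉ blk a := by
            intro hwa
            exact Finset.disjoint_left.1 (hd x (Finset.mem_insert_of_mem hx) a
              (Finset.mem_insert_self a I) (fun h => ha (h ▸ hx))) hw hwa
          simp [hwa, hne]
        · intro s _ t _ hst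
          simp only [Prod.mk.injEq] at hst
          funext w
          by_cases hw : w ∈ blk a
          · exact congrFun hst.2 ⟨w, hw⟩
          · simpa [hw] using congrFun hst.1 w
      rw [Finset.card_product, Finset.card_univ, Fintype.card_fun, Fintype.card_bool,
        Fintype.card_coe] at h1
      exact h1.trans (Nat.mul_le_mul_left _ (Nat.pow_le_pow_right (by norm_num)
        (hK a (Finset.mem_insert_self a I))))
    have hsplit : (Finset.univ.filter
        (fun s : Ω → Bool => ∀ x ∈ insert a I, ∃ w ∈ blk x, s w ≠ b)).card + G.card = S.card := by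
      have h2 : Finset.univ.filter
          (fun s : Ω → Bool => ∀ x ∈ insert a I, ∃ w ∈ blk x, s w ≠ b)
          = S.filter (fun s => ¬ ∀ w ∈ blk a, s w = b) := by
        ext s
        simp only [hS, Finset.mem_filter, Finset.mem_univ, true_and, Finset.forall_mem_insert,
          not_forall, exists_prop, ne_eq]
        tauto
      rw [h2, hG, add_comm]
      exact Finset.card_filter_add_card_filter_not _
    rw [Finset.card_insert_of_notMem ha, pow_succ, pow_succ]
    set T := (Finset.univ.filter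
        (fun s : Ω → Bool => ∀ x ∈ insert a I, ∃ w ∈ blk x, s w ≠ b)).card
    have hstep : T * 2 ^ K ≤ S.card * (2 ^ K - 1) := by
      rw [Nat.mul_sub, mul_one]
      apply Nat.le_sub_of_add_le
      calc T * 2 ^ K + S.card ≤ T * 2 ^ K + G.card * 2 ^ K := by omega
        _ = S.card * 2 ^ K := by rw [← add_mul, hsplit]
    calc T * ((2 ^ K) ^ I.card * 2 ^ K) = (T * 2 ^ K) * (2 ^ K) ^ I.card := by ring
      _ ≤ (S.card * (2 ^ K - 1)) * (2 ^ K) ^ I.card := Nat.mul_le_mul_right _ hstep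
      _ = (S.card * (2 ^ K) ^ I.card) * (2 ^ K - 1) := by ring
      _ ≤ ((2 ^ K - 1) ^ I.card * 2 ^ Fintype.card Ω) * (2 ^ K - 1) :=
        Nat.mul_le_mul_right _ ihS
      _ = (2 ^ K - 1) ^ I.card * (2 ^ K - 1) * 2 ^ Fintype.card Ω := by ring

open scoped Classical in
/-- `card_avoid_le`, for any set of such colourings. -/
lemma card_avoid_le' {Ω ι : Type*} [Fintype Ω] (I : Finset ι)
    (blk : ι → Finset Ω) (b : Bool)
    (K : ℕ) (hK : ∀ x ∈ I, (blk x).card ≤ K)
    (hd : ∀ x ∈ I, ∀ y ∈ I, x ≠ y → Disjoint (blk x) (blk y))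
    (S : Finset (Ω → Bool)) (hS : ∀ s ∈ S, ∀ x ∈ I, ∃ w ∈ blk x, s w ≠ b) :
    S.card * (2 ^ K) ^ I.card ≤ (2 ^ K - 1) ^ I.card * 2 ^ Fintype.card Ω := by
  refine le_trans (Nat.mul_le_mul_right _ (Finset.card_le_card ?_)) (card_avoid_le I blk b K hK hd)
  intro s hs
  exact Finset.mem_filter.2 ⟨Finset.mem_univ _, hS s hs⟩

/-- A neighbourhood of radius one has at most `3^N` points. -/
lemma card_near_le {N M : ℕ} (q : Grid N M) [DecidablePred fun p => GridNear p q] :
    (Finset.univ.filter fun p => GridNear p q).card ≤ 3 ^ N := by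
  have h : (Finset.univ.filter fun p => GridNear p q).card
      ≤ (Finset.univ : Finset (Fin N → Fin 3)).card := by
    apply Finset.card_le_card_of_injOn
      (fun p j => (⟨min ((p j : ℕ) + 1 - q j) 2, by omega⟩ : Fin 3))
    · intro p _; simp
    · intro p hp p' hp' h
      simp only [Finset.coe_filter, Set.mem_ofPred_eq, Finset.mem_univ, true_and] at hp hp'
      funext j
      have h' := congrArg Fin.val (congrFun h j)
      have := hp j; have := hp' j
      simp only at h'
      apply Fin.ext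
      omega
  simpa [Finset.card_univ] using h

/-- Exponential beats polynomial. -/
lemma grid_count_lt (N C K : ℕ) :
    ∃ L₀ : ℕ, ∀ ℓ, L₀ ≤ ℓ → ∀ M, M ≤ C * ℓ →
      2 * ((M + 1) ^ (2 * N)) ^ ℓ * (2 ^ K - 1) ^ (ℓ * ℓ) < (2 ^ K) ^ (ℓ * ℓ) := by
  have hpos : 0 < 2 ^ K := pow_pos (by norm_num) K
  generalize 2 ^ K = Z at hpos ⊢
  set a : ℝ := ((Z - 1 : ℕ) : ℝ) / (Z : ℕ) with hadef
  have ha0 : 0 ≤ a := div_nonneg (Nat.cast_nonneg _) (Nat.cast_nonneg _)
  have ha1 : a < 1 := by
    rw [hadef, div_lt_one (by exact_mod_cast hpos)]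
    exact_mod_cast Nat.sub_lt hpos Nat.one_pos
  have hlim : Filter.Tendsto
      (fun ℓ : ℕ => 2 * ((C : ℝ) + 1) ^ (2 * N) * ((ℓ : ℝ) ^ (2 * N) * a ^ ℓ))
      Filter.atTop (nhds 0) := by
    simpa using (tendsto_pow_const_mul_const_pow_of_lt_one (2 * N) ha0 ha1).const_mul
      (2 * ((C : ℝ) + 1) ^ (2 * N))
  obtain ⟨L₀, hL₀⟩ := Filter.eventually_atTop.1 (hlim.eventually (eventually_lt_nhds one_pos))
  refine ⟨max L₀ 1, fun ℓ hℓ M hM => ?_⟩
  have hℓ1 : 1 ≤ ℓ := le_trans (le_max_right _ _) hℓ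
  have hM' : (M : ℝ) + 1 ≤ ((C : ℝ) + 1) * ℓ := by
    have : M + 1 ≤ (C + 1) * ℓ := by rw [add_mul, one_mul]; omega
    exact_mod_cast this
  have hsmall : 2 * (((M : ℝ) + 1) ^ (2 * N)) * a ^ ℓ < 1 := by
    refine lt_of_le_of_lt ?_ (hL₀ ℓ (le_trans (le_max_left _ _) hℓ))
    calc 2 * ((M : ℝ) + 1) ^ (2 * N) * a ^ ℓ
        ≤ 2 * (((C : ℝ) + 1) * ℓ) ^ (2 * N) * a ^ ℓ := by gcongr
      _ = _ := by rw [mul_pow]; ring
  have hpw : (2 * (((M : ℝ) + 1) ^ (2 * N)) * a ^ ℓ) ^ ℓ < 1 :=
    pow_lt_one₀ (by positivity) hsmall (by omega)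
  have h2 : 2 * (((M : ℝ) + 1) ^ (2 * N)) ^ ℓ * a ^ (ℓ * ℓ) < 1 := by
    refine lt_of_le_of_lt ?_ hpw
    rw [mul_pow, mul_pow, ← pow_mul a]
    gcongr
    exact le_self_pow₀ (by norm_num) (by omega)
  have hZ : (0 : ℝ) < (Z : ℝ) ^ (ℓ * ℓ) := pow_pos (Nat.cast_pos.2 hpos) _
  rw [hadef, div_pow, ← mul_div_assoc, div_lt_one hZ] at h2
  exact_mod_cast h2

/-- The colouring. -/
theorem exists_grid_colouring (N C : ℕ) :
    ∃ L₀ : ℕ, ∀ ℓ, L₀ ≤ ℓ → ∀ M, M ≤ C * ℓ →
      ∃ σ : Grid N M → Grid N M → Bool, ∀ q₀ q₁ : Fin ℓ → Grid N M,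
        GridSeparated q₀ → GridSeparated q₁ → ∀ b : Bool,
          ∃ i k, ∀ p p', GridNear p (q₀ i) → GridNear p' (q₁ k) → σ p p' = b := by
  classical
  obtain ⟨K, hKdef⟩ : ∃ K : ℕ, K = 3 ^ N * 3 ^ N := ⟨_, rfl⟩
  obtain ⟨L₀, hnum'⟩ := grid_count_lt N C K
  refine ⟨L₀, fun ℓ hℓ M hM => ?_⟩
  have hnum := hnum' ℓ hℓ M hM
  by_contra hcon
  push Not at hcon
  let bad : (Fin ℓ → Grid N M) × (Fin ℓ → Grid N M) × Bool →
      Finset (Grid N M × Grid N M → Bool) := fun x =>
    if GridSeparated x.1 ∧ GridSeparated x.2.1 then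
      Finset.univ.filter (fun s : Grid N M × Grid N M → Bool => ∀ ik ∈ (Finset.univ : Finset (Fin ℓ × Fin ℓ)),
        ∃ w ∈ (Finset.univ.filter fun p => GridNear p (x.1 ik.1))
          ×ˢ (Finset.univ.filter fun p => GridNear p (x.2.1 ik.2)), s w ≠ x.2.2)
    else ∅
  have hcover : (Finset.univ : Finset (Grid N M × Grid N M → Bool))
      ⊆ Finset.univ.biUnion bad := by
    intro s _
    obtain ⟨q₀, q₁, h₀, h₁, b, hb⟩ := hcon (fun p p' => s (p, p'))
    simp only [Finset.mem_biUnion, Finset.mem_univ, true_and]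
    refine ⟨(q₀, q₁, b), ?_⟩
    simp only [bad, if_pos (And.intro h₀ h₁), Finset.mem_filter, Finset.mem_univ, true_and]
    intro ik _
    obtain ⟨p, p', hp, hp', hne⟩ := hb ik.1 ik.2
    exact ⟨(p, p'), by simp [hp, hp'], hne⟩
  set c : ℕ := (2 ^ K) ^ (ℓ * ℓ) with hc
  set Ω2 : ℕ := 2 ^ Fintype.card (Grid N M × Grid N M) with hΩ2
  have hbad : ∀ x, (bad x).card * c ≤ (2 ^ K - 1) ^ (ℓ * ℓ) * Ω2 := by
    intro x
    simp only [bad]
    split_ifs with hx
    · have hcard : (Finset.univ : Finset (Fin ℓ × Fin ℓ)).card = ℓ * ℓ := by simp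
      rw [hc, hΩ2, ← hcard]
      refine card_avoid_le' Finset.univ
        (fun ik : Fin ℓ × Fin ℓ => (Finset.univ.filter fun p => GridNear p (x.1 ik.1))
          ×ˢ (Finset.univ.filter fun p => GridNear p (x.2.1 ik.2))) x.2.2 K ?_ ?_ _
        (fun s hs => (Finset.mem_filter.1 hs).2)
      · intro ik _
        rw [Finset.card_product, hKdef]
        exact Nat.mul_le_mul (card_near_le _) (card_near_le _)
      · intro ik _ ik' _ hne
        rw [Finset.disjoint_left]
        intro w hw hw'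
        simp only [Finset.mem_product, Finset.mem_filter, Finset.mem_univ, true_and] at hw hw'
        apply hne
        have far : ∀ {q : Fin ℓ → Grid N M}, GridSeparated q → ∀ {i k : Fin ℓ} {p : Grid N M},
            GridNear p (q i) → GridNear p (q k) → i = k := by
          intro q hq i k p hi hk
          by_contra hik
          obtain ⟨j, hj⟩ := hq i k hik
          have := hi j
          have := hk j
          omega
        exact Prod.ext (far hx.1 hw.1 hw'.1) (far hx.2 hw.2 hw'.2)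
    · simp
  have htot : Ω2 * c ≤ 2 * ((M + 1) ^ (2 * N)) ^ ℓ * (2 ^ K - 1) ^ (ℓ * ℓ) * Ω2 := by
    have h1 : Ω2 ≤ ∑ x, (bad x).card := by
      refine le_trans ?_ (le_trans (Finset.card_le_card hcover) Finset.card_biUnion_le)
      rw [hΩ2, Finset.card_univ, Fintype.card_fun, Fintype.card_bool]
    calc Ω2 * c ≤ (∑ x, (bad x).card) * c := Nat.mul_le_mul_right _ h1
      _ = ∑ x, (bad x).card * c := Finset.sum_mul _ _ _
      _ ≤ ∑ _x, (2 ^ K - 1) ^ (ℓ * ℓ) * Ω2 := Finset.sum_le_sum fun x _ => hbad x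
      _ = _ := by
        rw [Finset.sum_const, Finset.card_univ, smul_eq_mul]
        simp only [Fintype.card_prod, Fintype.card_fun, Fintype.card_fin, Fintype.card_bool]
        ring
  have hlt := Nat.mul_lt_mul_of_pos_left hnum (show 0 < Ω2 from pow_pos (by norm_num) _)

  linarith

end Vale.Agent.P101
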